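import Vale.Agent.P033.PS.Count

/-!
# P033: the circulant Hadamard conjecture up to a power-saving exceptional set
-/

open Finset
open scoped Classical

namespace Vale.Agent.Results.P033.PowerSaving

open Vale.Agent.P033

theorem result :
    (∃ C : ℝ, ∀ x : ℕ,
      (((Icc 1 x).filter fun u => IsCHOrder (4 * u ^ 2)).card : ℝ) ≤
        C * (x : ℝ) ^ (1 - 1 / 1000000 : ℝ)) ∧
    (∃ C : ℝ, ∀ x : ℕ,
      (((Icc 1 x).filter fun n => IsCHOrder n).card : ℝ) ≤
        C * (x : ℝ) ^ (1 / 2 - 1 / 2000000 : ℝ)) ∧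
    (∀ P a v : ℕ, P.Prime → 0 < a → ¬ P ∣ v → 8 * v ^ 3 < (P - 1) * v.totient →
      ¬ IsCHOrder (4 * (P ^ a * v) ^ 2)) := by
  obtain ⟨C, -, hC⟩ := PS.exceptional_power_saving
  exact ⟨⟨C, hC⟩, PS.orders_power_saving,
    fun P a v hP ha hPv h => PS.no_CH_prime_power hP ha hPv h⟩

end Vale.Agent.Results.P033.PowerSaving
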